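import Vale.Agent.P066.Theta.H11.LineSer

/-!
# Positivity of the coefficients of theta functions, and the string property

`coeff_pos`: strong positivity implies that the coefficients of every theta function are Laurent
polynomials with nonnegative coefficients.  `string_of_face`: the `y_j`-string property.
-/

set_option autoImplicit false

open Finset

namespace Vale.Agent.P066.Theta

noncomputable section

open QSeries

variable {r : ℕ} {B : Matrix (Fin r) (Fin r) ℤ}

theorem Pos.of_zpow_mul {a : K} {i : ℤ} (h : Pos (v ^ i * a)) : Pos a := by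
  have h1 := h.zpow_mul (-i)
  rwa [← mul_assoc, ← zpow_add₀ v_ne_zero, neg_add_cancel, zpow_zero, one_mul] at h1

/-- The coefficient functionals of the product with the trivial theta functions. -/
theorem pos_al_twist (hB : B.transpose = -B) {g : QSeries B} (h0 : g 0 = 1)
    (hsp : StrongPositivity g) {s s' : Fin r → ℤ} {F : QSeries B} (hF : IsTheta g s F)
    (hs' : ∀ i, s' i ≤ 0) (γ : Fin r →₀ ℕ) : Pos (al g (s + s') γ (twist s' F)) := by
  have h1 := pos_al_mul h0 hsp hF (isTheta_one hB h0 hs') γ
  rwa [mul_one] at h1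

/-- Coefficients of theta functions are positive. -/
theorem coeff_pos (hB : B.transpose = -B) {g : QSeries B} (h0 : g 0 = 1)
    (hsp : StrongPositivity g) {s : Fin r → ℤ} {F : QSeries B} (hF : IsTheta g s F)
    (γ : Fin r →₀ ℕ) : Pos (F γ) := by
  set L : ℤ := ∑ i, |chartAt B s γ i| with hL
  have hL0 : 0 ≤ L := sum_nonneg fun i _ => abs_nonneg _
  have h1 := pos_al_twist hB h0 hsp hF (s' := fun _ => -L) (fun _ => by omega) γ
  have h2 : posPart g (chartAt B (s + fun _ => -L) γ) = 1 := by
    refine posPart_eq_one h0 fun i => ?_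
    have h3 : |chartAt B s γ i| ≤ L :=
      single_le_sum (f := fun i => |chartAt B s γ i|) (fun i _ => abs_nonneg _) (mem_univ i)
    have h4 : chartAt B (s + fun _ => -L) γ i = chartAt B s γ i - L := by
      simp only [chartAt, Pi.add_apply]
      ring
    rw [h4]
    have := le_abs_self (chartAt B s γ i)
    omega
  rw [al_apply, h2, conj_one, twist_apply] at h1
  exact h1.of_zpow_mul

/-! ### the `j`-face -/

/-- If `Q` is positive on `y_j` and on no other exponent below `η` which does not lie on the ray of
`y_j`, then the positive part agrees below `η` with the restriction of `g` to the ray. -/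
theorem posPart_agree_dilog {g : QSeries B} (h0 : g 0 = 1) {j : Fin r}
    (hface : ∀ m : ℕ, g (Finsupp.single j m) = psi m) {Q : Fin r → ℤ} {η : Fin r →₀ ℕ}
    (hj : 0 < Q j) (hQ : ∀ δ, δ ≤ η → 0 < wt Q δ → δ = Finsupp.single j (δ j)) :
    Agree η (posPart g Q) (dilog B (Finsupp.single j 1)) := by
  intro δ hδ
  have hc : (Finsupp.single j 1 : Fin r →₀ ℕ) ≠ 0 := by simp
  have hms : ∀ m : ℕ, m • (Finsupp.single j 1 : Fin r →₀ ℕ) = Finsupp.single j m := by
    intro m; simp
  have hwt : ∀ m : ℕ, wt Q (Finsupp.single j m) = m * Q j := by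
    intro m
    unfold wt
    rw [sum_eq_single j]
    · simp
    · intro i _ hi
      simp [Finsupp.single_eq_of_ne hi]
    · intro h; exact absurd (mem_univ j) h
  by_cases h : δ = Finsupp.single j (δ j)
  · obtain ⟨hz, hsp, gm, hgm, hg⟩ := isPosPart_iff.1 (posPart_spec h0 Q)
    have hgm0 : gm 0 = 1 := by
      have := congrFun hg 0
      rw [mul_zero_apply, h0, hz, one_mul] at this
      exact this.symm
    have e1 : dilog B (Finsupp.single j 1) δ = psi (δ j) := by
      conv_lhs => rw [h, ← hms (δ j)]
      exact Dil.line_smul_apply (B := B) hc psi (δ j)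
    rw [e1, ← hface, ← h]
    have e2 := congrFun hg δ
    rw [e2, mul_apply, sum_eq_single (δ, 0)]
    · simp [hgm0]
    · rintro ⟨a, b⟩ hab hne
      rw [HasAntidiagonal.mem_antidiagonal] at hab
      have hb : b ≠ 0 := by
        rintro rfl
        apply hne
        simp at hab
        rw [hab]
      have hb' : b = Finsupp.single j (b j) := by
        ext i
        by_cases hi : i = j
        · subst hi; simp
        · rw [Finsupp.single_eq_of_ne hi]
          have h1 := DFunLike.congr_fun hab i
          rw [h, Finsupp.single_eq_of_ne hi] at h1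
          simp only [Finsupp.add_apply] at h1
          omega
      have hbj : 0 < b j := by
        rcases Nat.eq_zero_or_pos (b j) with h1 | h1
        · rw [h1, Finsupp.single_zero] at hb'
          exact absurd hb' hb
        · exact h1
      have h2 : gm b = 0 := by
        by_contra h3
        have h4 := mem_leSub.1 (hgm b h3)
        rw [hb', hwt] at h4
        have h5 : (0:ℤ) < (b j : ℤ) * Q j := mul_pos (by exact_mod_cast hbj) hj
        omega
      show v ^ omega B (toZ a) (toZ b) * _ * gm b = 0
      rw [h2, mul_zero]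
    · intro h; simp at h
  · have h1 : posPart g Q δ = 0 := by
      by_contra h2
      rcases mem_posSub.1 (posPart_mem g Q δ h2) with h3 | h3
      · subst h3
        apply h
        simp
      · exact h (hQ δ hδ h3)
    rw [h1, Dil.dilog_eq_line, Dil.line_apply_of_not]
    intro m hm
    apply h
    rw [hms] at hm
    rw [← hm]
    simp

/-- The expansion of a theta function in the chart behind the wall of `y_j` is positive at the
exponents on which `y_j` is positive. -/
theorem pos_conj_dilog (hB : B.transpose = -B) {g : QSeries B} (h0 : g 0 = 1)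
    (hsp : StrongPositivity g) {j : Fin r} (hface : ∀ m : ℕ, g (Finsupp.single j m) = psi m)
    {s : Fin r → ℤ} {F : QSeries B} (hF : IsTheta g s F) (η : Fin r →₀ ℕ)
    (hj : 0 < chartAt B s η j) : Pos (conj s (dilog B (Finsupp.single j 1)) F η) := by
  set L : ℤ := (∑ i, |chartAt B s η i|) + (η j) * chartAt B s η j with hL
  have hL0 : 0 ≤ L := by
    have h1 : 0 ≤ ∑ i, |chartAt B s η i| := sum_nonneg fun i _ => abs_nonneg _
    have h2 : 0 ≤ (η j : ℤ) * chartAt B s η j := mul_nonneg (Int.natCast_nonneg _) hj.le
    omega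
  set s' : Fin r → ℤ := fun i => if i = j then 0 else -L with hs'
  have hs'0 : ∀ i, s' i ≤ 0 := by
    intro i
    simp only [hs']
    split_ifs <;> omega
  have h1 := pos_al_twist hB h0 hsp hF hs'0 η
  have hQ : ∀ i, chartAt B (s + s') η i = chartAt B s η i + s' i := by
    intro i
    simp only [chartAt, Pi.add_apply]
    ring
  have hQj : chartAt B (s + s') η j = chartAt B s η j := by
    rw [hQ]; simp [hs']
  have hag : Agree η (posPart g (chartAt B (s + s') η)) (dilog B (Finsupp.single j 1)) := by
    refine posPart_agree_dilog h0 hface (by rw [hQj]; exact hj) ?_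
    intro δ hδ hw
    by_contra hne
    obtain ⟨i, hi⟩ := Finsupp.ne_iff.1 hne
    have hij : i ≠ j := by
      rintro rfl
      simp at hi
    rw [Finsupp.single_eq_of_ne hij] at hi
    have hneg : ∀ k, k ≠ j → chartAt B (s + s') η k ≤ -((η j) * chartAt B s η j) := by
      intro k hk
      rw [hQ]
      have h3 : |chartAt B s η k| ≤ ∑ i, |chartAt B s η i| :=
        single_le_sum (f := fun i => |chartAt B s η i|) (fun i _ => abs_nonneg _) (mem_univ k)
      have h4 := le_abs_self (chartAt B s η k)
      simp only [hs', if_neg hk]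
      omega
    have hnn : 0 ≤ (η j : ℤ) * chartAt B s η j := mul_nonneg (Int.natCast_nonneg _) hj.le
    have h5 : wt (chartAt B (s + s') η) δ ≤ (δ j : ℤ) * chartAt B s η j +
        (δ i : ℤ) * chartAt B (s + s') η i := by
      unfold wt
      rw [← add_sum_erase univ _ (mem_univ j), hQj]
      have h6 : ∑ k ∈ univ.erase j, (δ k : ℤ) * chartAt B (s + s') η k ≤
          (δ i : ℤ) * chartAt B (s + s') η i := by
        rw [← add_sum_erase (univ.erase j) _ (mem_erase.2 ⟨hij, mem_univ i⟩)]
        have h7 : ∑ k ∈ (univ.erase j).erase i, (δ k : ℤ) * chartAt B (s + s') η k ≤ 0 := by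
          refine sum_nonpos fun k hk => ?_
          have hk2 : k ≠ j := (mem_erase.1 (mem_erase.1 hk).2).1
          exact mul_nonpos_of_nonneg_of_nonpos (Int.natCast_nonneg _) (by linarith [hneg k hk2])
        omega
      omega
    have h8 : (δ j : ℤ) * chartAt B s η j ≤ (η j : ℤ) * chartAt B s η j :=
      mul_le_mul_of_nonneg_right (by exact_mod_cast hδ j) hj.le
    have h9 : (δ i : ℤ) * chartAt B (s + s') η i ≤ 1 * chartAt B (s + s') η i := by
      refine mul_le_mul_of_nonpos_right ?_ (by linarith [hneg i hij])
      have : 1 ≤ δ i := Nat.one_le_iff_ne_zero.2 hi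
      exact_mod_cast this
    have := hneg i hij
    linarith
  have h2 : al g (s + s') η (twist s' F) =
      v ^ (2 * wt s' η) * conj s (dilog B (Finsupp.single j 1)) F η := by
    rw [al_apply, conj_agree (posPart_zero _ _) hag Agree.rfl' η le_rfl, ← twist_apply]
    unfold conj
    have h3 : twist s' (dilog B (Finsupp.single j 1)) = dilog B (Finsupp.single j 1) := by
      ext γ
      rw [twist_apply]
      by_cases h : ∃ m : ℕ, m • (Finsupp.single j 1 : Fin r →₀ ℕ) = γ
      · obtain ⟨m, rfl⟩ := h
        have : wt s' (m • (Finsupp.single j 1 : Fin r →₀ ℕ)) = 0 := by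
          unfold wt
          refine sum_eq_zero fun i _ => ?_
          by_cases hi : i = j
          · simp [hs', hi]
          · simp [Finsupp.single_eq_of_ne hi]
        rw [this]; simp
      · push Not at h
        rw [Dil.dilog_eq_line, Dil.line_apply_of_not _ h, mul_zero]
    have hz : (dilog B (Finsupp.single j 1) : QSeries B) 0 = 1 := Dil.dilog_zero_apply _
    rw [twist_mul, twist_mul, h3, twist_inverse s' (by rw [twist_apply_zero, hz]; exact one_ne_zero),
      twist_twist, add_comm s' s]
  rw [h2] at h1
  exact h1.of_zpow_mul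

/-- The string property. -/
theorem string_of_face (hB : B.transpose = -B) {g : QSeries B} (h0 : g 0 = 1)
    (hsp : StrongPositivity g) {j : Fin r} (hface : ∀ m : ℕ, g (Finsupp.single j m) = psi m) :
    StringProp g j := by
  intro s F hF γ hne hbot c hc hcc
  set γ0 : Fin r →₀ ℕ := γ.erase j with hγ0
  have hγj : γ0 j = 0 := by simp [hγ0]
  have hγ : γ0 + Finsupp.single j (γ j) = γ := Finsupp.erase_add_single j γ
  have hBjj : B j j = 0 := by
    have := congrFun (congrFun hB j) j
    simp only [Matrix.transpose_apply, Matrix.neg_apply] at this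
    omega
  have hch : ∀ m : ℕ, chartAt B s (γ0 + Finsupp.single j m) j = chartAt B s γ0 j := by
    intro m
    simp only [chartAt, Finsupp.add_apply, Nat.cast_add, mul_add, sum_add_distrib]
    have : ∑ x, B j x * ((Finsupp.single j m : Fin r →₀ ℕ) x : ℤ) = 0 := by
      rw [sum_eq_single j]
      · rw [hBjj, zero_mul]
      · intro i _ hi
        simp [Finsupp.single_eq_of_ne hi]
      · intro h; exact absurd (mem_univ j) h
    omega
  have hc0 : chartAt B s γ0 j = c := by rw [← hch (γ j), hγ, hcc]
  have key := lineSer_conj hB j hγj s F hc0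
  set ρ := lineSer j γ0 (conj s (dilog B (Finsupp.single j 1)) F) with hρ
  have hρpos : ∀ m, Pos (PowerSeries.coeff m ρ) := by
    intro m
    rw [hρ, lineSer, PowerSeries.coeff_mk]
    refine pos_conj_dilog hB h0 hsp hface hF _ ?_
    rw [hch, hc0]
    exact_mod_cast hc
  obtain ⟨-, h2, h3⟩ := prod_lin_pos (fun i => 2 * (i : ℤ) + 1 + (-chartAt B 0 γ0 j)) hρpos c
  rw [← key] at h2 h3
  have hf : ∀ m, PowerSeries.coeff m (lineSer j γ0 F) = F (γ0 + Finsupp.single j m) := by
    intro m; rw [lineSer, PowerSeries.coeff_mk]
  have hz : ∀ m, m < γ j → PowerSeries.coeff m ρ = 0 := by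
    intro m hm
    by_contra h4
    apply h3 m h4
    rw [hf]
    refine hbot _ ?_ ?_ ?_
    · conv_rhs => rw [← hγ]
      exact add_le_add le_rfl (Finsupp.single_le_single.2 hm.le)
    · intro h5
      have h6 := DFunLike.congr_fun (add_left_cancel (h5.trans hγ.symm)) j
      simp at h6
      omega
    · intro i hi
      conv_rhs => rw [← hγ]
      simp only [Finsupp.add_apply, Finsupp.single_eq_of_ne hi]
  have hρ0 : PowerSeries.coeff (γ j) ρ ≠ 0 := by
    intro h4
    have h5 : (PowerSeries.X : PowerSeries K) ^ (γ j + 1) ∣ ρ := by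
      rw [PowerSeries.X_pow_dvd_iff]
      intro m hm
      rcases Nat.lt_succ_iff_lt_or_eq.1 hm with h6 | h6
      · exact hz m h6
      · rw [h6]; exact h4
    have h6 : (PowerSeries.X : PowerSeries K) ^ (γ j + 1) ∣ lineSer j γ0 F := by
      rw [key]
      exact h5.mul_left _
    rw [PowerSeries.X_pow_dvd_iff] at h6
    apply hne
    rw [← hγ, ← hf]
    exact h6 _ (Nat.lt_succ_self _)
  have h4 := h2 _ hρ0
  rw [hf, Finsupp.single_add, ← add_assoc, hγ] at h4
  exact h4

/-- S3a + S3b: a good element gives `ThetaData`. -/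
theorem GoodElement.thetaData {N k : ℕ} (hg : GoodElement N k) : Nonempty (ThetaData N k) :=
  thetaData_of_good hg
    (fun _ h0 hsp _ _ hF γ => coeff_pos (Dil.extB_skew N k) h0 hsp hF γ)
    (fun _ h0 hsp _ hf => string_of_face (Dil.extB_skew N k) h0 hsp hf)

end

end Vale.Agent.P066.Theta
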