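import Vale.Agent.P066.Theta.H11.ToThetaData
import Vale.Agent.P066.Theta.Comb.Pos
import Vale.Agent.P066.Theta.H21.OneVar

/-!
# Coefficients on one `y_j`-line

The one-variable identity satisfied by the coefficients of `F` and of its expansion behind the wall
of `y_j`, and positivity of products of `1 + v^e T` with a positive series.
-/

set_option autoImplicit false

open Finset

namespace Vale.Agent.P066.Theta

noncomputable section

open QSeries

variable {r : ℕ} {B : Matrix (Fin r) (Fin r) ℤ}

/-! ### one line -/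

/-- The series of the coefficients on the `y_j`-line of `γ`. -/
def lineSer (j : Fin r) (γ : Fin r →₀ ℕ) (G : QSeries B) : PowerSeries K :=
  PowerSeries.mk fun m => G (γ + Finsupp.single j m)

theorem single_smul_one (j : Fin r) (m : ℕ) :
    m • (Finsupp.single j 1 : Fin r →₀ ℕ) = Finsupp.single j m := by simp

theorem line_single (j : Fin r) (f : ℕ → K) (m : ℕ) :
    Dil.line B (Finsupp.single j 1) f (Finsupp.single j m) = f m := by
  have h := Dil.line_smul_apply (B := B) (c := Finsupp.single j 1) (by simp) f m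
  rwa [single_smul_one] at h

theorem line_ne_zero {j : Fin r} {f : ℕ → K} {a : Fin r →₀ ℕ}
    (h : Dil.line B (Finsupp.single j 1) f a ≠ 0) : a = Finsupp.single j (a j) := by
  by_contra hn
  apply h
  apply Dil.line_apply_of_not
  intro m hm
  apply hn
  rw [single_smul_one] at hm
  rw [← hm]
  simp

theorem omega_single (hB : B.transpose = -B) (j : Fin r) (γ : Fin r →₀ ℕ) (a b : ℕ) :
    omega B (toZ (Finsupp.single j a)) (toZ (γ + Finsupp.single j b)) =
      a * chartAt B 0 γ j := by
  have h1 : toZ (Finsupp.single j a : Fin r →₀ ℕ) =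
      toZ (a • (Finsupp.single j 1 : Fin r →₀ ℕ)) := by rw [single_smul_one]
  have h2 : toZ (Finsupp.single j b : Fin r →₀ ℕ) =
      toZ (b • (Finsupp.single j 1 : Fin r →₀ ℕ)) := by rw [single_smul_one]
  rw [h1, Dil.omega_smul_left, toZ_add, omega_add_right, h2, Dil.omega_smul_right, omega_self hB,
    mul_zero, add_zero, ← wt_chartAt_zero]
  congr 1
  unfold wt
  rw [sum_eq_single j]
  · simp
  · intro i _ hi
    simp [Finsupp.single_eq_of_ne hi]
  · intro h; exact absurd (mem_univ j) h

theorem lineSer_line_mul (hB : B.transpose = -B) (j : Fin r) {γ : Fin r →₀ ℕ} (hγ : γ j = 0)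
    (f : ℕ → K) (G : QSeries B) :
    lineSer j γ (Dil.line B (Finsupp.single j 1) f * G) =
      PowerSeries.mk (fun m => f m * v ^ (chartAt B 0 γ j * (m : ℤ))) * lineSer j γ G := by
  ext n
  rw [lineSer, PowerSeries.coeff_mk, PowerSeries.coeff_mul, mul_apply]
  symm
  refine sum_of_injOn (fun p => (Finsupp.single j p.1, γ + Finsupp.single j p.2)) ?_ ?_ ?_ ?_
  · rintro ⟨a, b⟩ _ ⟨a', b'⟩ _ h
    simp only [Prod.mk.injEq, add_right_inj] at h
    have h1 := DFunLike.congr_fun h.1 j
    have h2 := DFunLike.congr_fun h.2 j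
    simp only [Finsupp.single_eq_same] at h1 h2
    rw [h1, h2]
  · rintro ⟨a, b⟩ h
    rw [mem_coe, HasAntidiagonal.mem_antidiagonal] at h
    rw [mem_coe, HasAntidiagonal.mem_antidiagonal]
    show Finsupp.single j a + (γ + Finsupp.single j b) = γ + Finsupp.single j n
    rw [← h, Finsupp.single_add]
    abel
  · rintro ⟨a, b⟩ h1 h2
    rw [HasAntidiagonal.mem_antidiagonal] at h1
    by_contra h3
    have h4 : Dil.line B (Finsupp.single j 1) f a ≠ 0 := by
      intro h5; apply h3
      show _ * Dil.line B (Finsupp.single j 1) f a * _ = 0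
      rw [h5]; ring
    have h5 := line_ne_zero h4
    apply h2
    have h6 : b j + a j = n := by
      have := DFunLike.congr_fun h1 j
      simp only [Finsupp.add_apply, Finsupp.single_eq_same, hγ] at this
      omega
    refine ⟨(a j, b j), ?_, ?_⟩
    · rw [mem_coe, HasAntidiagonal.mem_antidiagonal]
      show a j + b j = n
      omega
    · show (Finsupp.single j (a j), γ + Finsupp.single j (b j)) = (a, b)
      rw [← h5]
      have h7 : γ + Finsupp.single j (b j) = b := by
        rw [← h6, Finsupp.single_add, h5] at h1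
        simp only [Finsupp.single_eq_same] at h1
        have h8 : b + Finsupp.single j (a j) = (γ + Finsupp.single j (b j)) + Finsupp.single j (a j) := by
          rw [add_assoc, ← h1]; abel
        exact (add_right_cancel h8).symm
      rw [h7]
  · rintro ⟨a, b⟩ _
    show PowerSeries.coeff a _ * PowerSeries.coeff b _ = v ^ omega B (toZ (Finsupp.single j a))
      (toZ (γ + Finsupp.single j b)) * Dil.line B (Finsupp.single j 1) f (Finsupp.single j a) *
        G (γ + Finsupp.single j b)
    rw [PowerSeries.coeff_mk, lineSer, PowerSeries.coeff_mk, omega_single hB, line_single,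
      mul_comm (a : ℤ)]
    ring

theorem lineSer_mul_line (hB : B.transpose = -B) (j : Fin r) {γ : Fin r →₀ ℕ} (hγ : γ j = 0)
    (f : ℕ → K) (G : QSeries B) :
    lineSer j γ (G * Dil.line B (Finsupp.single j 1) f) =
      PowerSeries.mk (fun m => f m * v ^ (-chartAt B 0 γ j * (m : ℤ))) * lineSer j γ G := by
  rw [mul_comm]
  ext n
  rw [lineSer, PowerSeries.coeff_mk, PowerSeries.coeff_mul, mul_apply]
  symm
  refine sum_of_injOn (fun p => (γ + Finsupp.single j p.1, Finsupp.single j p.2)) ?_ ?_ ?_ ?_
  · rintro ⟨a, b⟩ _ ⟨a', b'⟩ _ h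
    simp only [Prod.mk.injEq, add_right_inj] at h
    have h1 := DFunLike.congr_fun h.1 j
    have h2 := DFunLike.congr_fun h.2 j
    simp only [Finsupp.single_eq_same] at h1 h2
    rw [h1, h2]
  · rintro ⟨a, b⟩ h
    rw [mem_coe, HasAntidiagonal.mem_antidiagonal] at h
    rw [mem_coe, HasAntidiagonal.mem_antidiagonal]
    show γ + Finsupp.single j a + Finsupp.single j b = γ + Finsupp.single j n
    rw [← h, Finsupp.single_add, add_assoc]
  · rintro ⟨b, a⟩ h1 h2
    rw [HasAntidiagonal.mem_antidiagonal] at h1
    by_contra h3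
    have h4 : Dil.line B (Finsupp.single j 1) f a ≠ 0 := by
      intro h5; apply h3
      show _ * _ * Dil.line B (Finsupp.single j 1) f a = 0
      rw [h5]; ring
    have h5 := line_ne_zero h4
    apply h2
    have h6 : b j + a j = n := by
      have := DFunLike.congr_fun h1 j
      simp only [Finsupp.add_apply, Finsupp.single_eq_same, hγ] at this
      omega
    refine ⟨(b j, a j), ?_, ?_⟩
    · rw [mem_coe, HasAntidiagonal.mem_antidiagonal]
      exact h6
    · show (γ + Finsupp.single j (b j), Finsupp.single j (a j)) = (b, a)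
      rw [← h5]
      have h7 : γ + Finsupp.single j (b j) = b := by
        rw [← h6, Finsupp.single_add, h5] at h1
        simp only [Finsupp.single_eq_same] at h1
        have h8 : b + Finsupp.single j (a j) = (γ + Finsupp.single j (b j)) + Finsupp.single j (a j) := by
          rw [add_assoc, ← h1]
        exact (add_right_cancel h8).symm
      rw [h7]
  · rintro ⟨b, a⟩ _
    show PowerSeries.coeff b _ * PowerSeries.coeff a _ = v ^ omega B
      (toZ (γ + Finsupp.single j b)) (toZ (Finsupp.single j a)) * G (γ + Finsupp.single j b) *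
        Dil.line B (Finsupp.single j 1) f (Finsupp.single j a)
    rw [PowerSeries.coeff_mk, lineSer, PowerSeries.coeff_mk, omega_swap hB, omega_single hB,
      line_single, neg_mul, mul_comm (a : ℤ)]
    ring

/-- The one-variable identity behind the string property. -/
theorem lineSer_conj (hB : B.transpose = -B) (j : Fin r) {γ : Fin r →₀ ℕ} (hγ : γ j = 0)
    (s : Fin r → ℤ) (F : QSeries B) {c : ℕ} (hc : chartAt B s γ j = c) :
    lineSer j γ F = ((∏ i ∈ range c,
      (1 + Polynomial.C (v ^ (2 * (i : ℤ) + 1 + (-chartAt B 0 γ j))) * Polynomial.X) :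
        Polynomial K) : PowerSeries K) * lineSer j γ (conj s (dilog B (Finsupp.single j 1)) F) := by
  have h1 := (conj_iff (s := s) (F := F) (Dil.dilog_zero_apply (B := B) (Finsupp.single j 1))).1 rfl
  have h2 := congrArg (lineSer j γ) h1
  rw [Dil.dilog_eq_line, Dil.twist_line s (by simp), lineSer_line_mul hB j hγ,
    lineSer_mul_line hB j hγ, ← Dil.dilog_eq_line] at h2
  have e1 : PowerSeries.mk (fun m : ℕ => psi m * v ^ (-chartAt B 0 γ j * (m : ℤ))) =
      H21.Psi (-chartAt B 0 γ j) := rfl
  have e2 : PowerSeries.mk (fun m : ℕ => v ^ (2 * ((m : ℤ) * wt s (Finsupp.single j 1))) * psi m *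
      v ^ (chartAt B 0 γ j * (m : ℤ))) = H21.Psi (-chartAt B 0 γ j + 2 * c) := by
    unfold H21.Psi
    congr 1
    funext m
    have h3 : wt s (Finsupp.single j 1) = s j := by
      unfold wt
      rw [sum_eq_single j]
      · simp
      · intro i _ hi
        simp [Finsupp.single_eq_of_ne hi]
      · intro h; exact absurd (mem_univ j) h
    have h4 : s j = c - chartAt B 0 γ j := by
      rw [← hc, chartAt_eq]
      simp
    rw [h3, h4, mul_comm (_ * psi m), mul_comm _ (psi m), mul_comm, mul_assoc, ← zpow_add₀ v_ne_zero]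
    congr 2
    ring
  rw [e1, e2, H21.Psi_prod, mul_assoc, mul_left_comm] at h2
  exact (mul_left_cancel₀ (H21.Psi_ne_zero _) h2).symm

/-! ### positivity of one-variable products -/

theorem coeff_lin_mul_zero (b : K) (h : PowerSeries K) :
    PowerSeries.coeff 0 (((1 + Polynomial.C b * Polynomial.X : Polynomial K) : PowerSeries K) * h) =
      PowerSeries.coeff 0 h := by
  rw [Polynomial.coe_add, Polynomial.coe_one, Polynomial.coe_mul, Polynomial.coe_C,
    Polynomial.coe_X, add_mul, one_mul, map_add, mul_assoc, PowerSeries.coeff_C_mul,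
    PowerSeries.coeff_zero_X_mul, mul_zero, add_zero]

theorem coeff_lin_mul_succ (b : K) (h : PowerSeries K) (m : ℕ) :
    PowerSeries.coeff (m + 1)
      (((1 + Polynomial.C b * Polynomial.X : Polynomial K) : PowerSeries K) * h) =
      PowerSeries.coeff (m + 1) h + b * PowerSeries.coeff m h := by
  rw [Polynomial.coe_add, Polynomial.coe_one, Polynomial.coe_mul, Polynomial.coe_C,
    Polynomial.coe_X, add_mul, one_mul, map_add, mul_assoc, PowerSeries.coeff_C_mul,
    PowerSeries.coeff_succ_X_mul]

theorem prod_lin_pos (e : ℕ → ℤ) {ρ : PowerSeries K} (hρ : ∀ m, Pos (PowerSeries.coeff m ρ))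
    (c : ℕ) :
    (∀ m, Pos (PowerSeries.coeff m (((∏ i ∈ range c,
      (1 + Polynomial.C (v ^ e i) * Polynomial.X) : Polynomial K) : PowerSeries K) * ρ))) ∧
    (∀ m, PowerSeries.coeff m ρ ≠ 0 → PowerSeries.coeff (m + c) (((∏ i ∈ range c,
      (1 + Polynomial.C (v ^ e i) * Polynomial.X) : Polynomial K) : PowerSeries K) * ρ) ≠ 0) ∧
    (∀ m, PowerSeries.coeff m ρ ≠ 0 → PowerSeries.coeff m (((∏ i ∈ range c,
      (1 + Polynomial.C (v ^ e i) * Polynomial.X) : Polynomial K) : PowerSeries K) * ρ) ≠ 0) := by
  induction c with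
  | zero => simpa using hρ
  | succ c ih =>
    obtain ⟨h1, h2, h3⟩ := ih
    set h : PowerSeries K := ((∏ i ∈ range c,
      (1 + Polynomial.C (v ^ e i) * Polynomial.X) : Polynomial K) : PowerSeries K) * ρ with hh
    have e1 : ((∏ i ∈ range (c + 1), (1 + Polynomial.C (v ^ e i) * Polynomial.X) :
        Polynomial K) : PowerSeries K) * ρ =
        ((1 + Polynomial.C (v ^ e c) * Polynomial.X : Polynomial K) : PowerSeries K) * h := by
      rw [prod_range_succ, Polynomial.coe_mul, hh]
      ring
    rw [e1]
    have hne : ∀ {a b : K}, Pos a → Pos b → a ≠ 0 ∨ b ≠ 0 → a + b ≠ 0 := by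
      intro a b ha hb hab h0
      obtain ⟨ha0, hb0⟩ := ha.add_eq_zero hb h0
      rcases hab with h | h
      · exact h ha0
      · exact h hb0
    refine ⟨?_, ?_, ?_⟩
    · intro m
      rcases m with _ | m
      · rw [coeff_lin_mul_zero]; exact h1 0
      · rw [coeff_lin_mul_succ]
        exact (h1 _).add ((h1 m).zpow_mul _)
    · intro m hm
      have : m + (c + 1) = (m + c) + 1 := by omega
      rw [this, coeff_lin_mul_succ]
      exact hne (h1 _) ((h1 _).zpow_mul _) (Or.inr (mul_ne_zero (zpow_ne_zero _ v_ne_zero)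
        (h2 m hm)))
    · intro m hm
      rcases m with _ | m
      · rw [coeff_lin_mul_zero]; exact h3 0 hm
      · rw [coeff_lin_mul_succ]
        exact hne (h1 _) ((h1 _).zpow_mul _) (Or.inl (h3 _ hm))

end

end Vale.Agent.P066.Theta
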