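import Vale.Agent.P066.Theta.ThetaE
import Vale.Agent.P066.Theta.Comb.Pos
import Vale.Agent.P066.Theta.H615.Family

/-!
# From strong positivity to `ThetaData`

The theta functions of a good group element of the extended seed satisfy all the properties
collected in `ThetaData N k`.  The two analytic inputs on a single theta function (positivity of
its coefficients, the `y_j`-string property) are hypotheses here; they are proved for general seeds
in the block `CoeffPos`.
-/

set_option autoImplicit false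

open Finset

namespace Vale.Agent.P066.Theta

noncomputable section

open QSeries

theorem Pos.zpow_mul {a : K} (h : Pos a) (i : ℤ) : Pos (v ^ i * a) := by
  obtain ⟨c, rfl⟩ := h
  refine ⟨c.mapDomain (fun j => i + j), ?_⟩
  rw [Finsupp.sum_mapDomain_index (by intro _; simp) (by intro _ m₁ m₂; push_cast; ring),
    Finsupp.sum, Finsupp.sum, Finset.mul_sum]
  refine sum_congr rfl fun j _ => ?_
  rw [zpow_add₀ v_ne_zero]
  ring

section General

variable {r : ℕ} {B : Matrix (Fin r) (Fin r) ℤ}

/-- Coefficients of chart expansions at the base `s` as values of `al`. -/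
theorem pos_al_of {g : QSeries B} (h0 : g 0 = 1) {s : Fin r → ℤ} {γ : Fin r →₀ ℕ} {F : QSeries B}
    (h : ∀ R, IsChartExpansion g s γ F R → Pos (R γ)) : Pos (al g s γ F) := by
  have h1 : IsChartExpansion g s γ F (conj s (posPart g (chartAt B s γ)) F) :=
    (isChartExpansion_iff h0).2 rfl
  have h2 := h _ h1
  rwa [h1.eq_al h0] at h2

theorem pos_al_mul {g : QSeries B} (h0 : g 0 = 1) (hsp : StrongPositivity g)
    {s s' : Fin r → ℤ} {F F' : QSeries B} (hF : IsTheta g s F) (hF' : IsTheta g s' F')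
    (γ : Fin r →₀ ℕ) : Pos (al g (s + s') γ (twist s' F * F')) :=
  pos_al_of h0 fun R hR => hsp s s' F F' hF hF' γ R hR

theorem pos_al_th_mul_th (hB : B.transpose = -B) {g : QSeries B} (h0 : g 0 = 1)
    (hsp : StrongPositivity g) (γ γ' δ : Fin r →₀ ℕ) :
    Pos (al g 0 δ (th g γ * th g γ')) := by
  by_cases h : γ + γ' ≤ δ
  · obtain ⟨ε, rfl⟩ := exists_add_of_le h
    rw [al_th_mul_th hB]
    exact (pos_al_mul h0 hsp (thF_spec h0 _) (thF_spec h0 _) ε).zpow_mul _
  · rw [al_th_mul_th_of_not_le hB g h]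
    exact Pos.zero

/-- The coefficients of `ϑ_γ`, given the coefficients of the `F`. -/
theorem pos_th {g : QSeries B}
    (hcp : ∀ (s : Fin r → ℤ) (γ : Fin r →₀ ℕ), Pos (thF g s γ)) (γ η : Fin r →₀ ℕ) :
    Pos (th g γ η) := by
  by_cases h : γ ≤ η
  · obtain ⟨ε, rfl⟩ := exists_add_of_le h
    rw [th_add]
    exact (hcp _ ε).zpow_mul _
  · have : th g γ η = 0 := by
      by_contra h1
      exact h (th_supp h1)
    rw [this]
    exact Pos.zero

/-- The string property of theta functions for the vertex `j` of a seed: if `γ` is the bottom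
exponent of `F` on its `y_j`-line and `c > 0` is the value of `ω(y_j, p + γ)`, then the exponent
`γ + c y_j` occurs in `F`. -/
def StringProp (g : QSeries B) (j : Fin r) : Prop :=
  ∀ (s : Fin r → ℤ) (F : QSeries B), IsTheta g s F → ∀ γ : Fin r →₀ ℕ, F γ ≠ 0 →
    (∀ γ' : Fin r →₀ ℕ, γ' ≤ γ → γ' ≠ γ → (∀ i, i ≠ j → γ' i = γ i) → F γ' = 0) →
    ∀ c : ℕ, 0 < c → chartAt B s γ j = c → F (γ + Finsupp.single j c) ≠ 0

theorem string_th {g : QSeries B} (h0 : g 0 = 1) {j : Fin r} (hs : StringProp g j)
    (γ η : Fin r →₀ ℕ) (h : th g γ η ≠ 0)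
    (hb : ∀ η', η' ≤ η → η' ≠ η → (∀ i, i ≠ j → η' i = η i) → th g γ η' = 0)
    (c : ℕ) (hc : 0 < c) (hcc : ∑ i, B j i * (η i : ℤ) = c) :
    th g γ (η + Finsupp.single j c) ≠ 0 := by
  obtain ⟨ε, rfl⟩ := exists_add_of_le (th_supp h)
  rw [th_add] at h
  rw [add_assoc, th_add]
  refine mul_ne_zero (zpow_ne_zero _ v_ne_zero) ?_
  refine hs (chartAt B 0 γ) _ (thF_spec h0 _) ε (right_ne_zero_of_mul h) ?_ c hc ?_
  · intro ε' h1 h2 h3
    have h4 := hb (γ + ε') (add_le_add le_rfl h1) (fun h5 => h2 (add_left_cancel h5))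
      (fun i hi => by rw [Finsupp.add_apply, Finsupp.add_apply, h3 i hi])
    rw [th_add] at h4
    exact (mul_eq_zero.1 h4).resolve_left (zpow_ne_zero _ v_ne_zero)
  · rw [← hcc]
    simp only [chartAt, Pi.zero_apply, zero_add, Finsupp.add_apply, Nat.cast_add, mul_add,
      sum_add_distrib]

end General

/-- The assembly of `ThetaData N k`. -/
theorem thetaData_of {N k : ℕ} {g : QSeries (extB N k)} (h0 : g 0 = 1) (hsp : StrongPositivity g)
    (hcp : ∀ (s : Fin N → ℤ) (F : QSeries (extB N k)), IsTheta g s F → ∀ γ, Pos (F γ))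
    (hstr : ∀ j : Fin N, (j : ℕ) ≠ 0 → StringProp g j)
    (hH : ∀ (γ : Fin N →₀ ℕ) (R : QSeries (extB N k)),
      IsChartExpansion g 0 γ (Eser N k (-1)) R → Pos (R γ)) : Nonempty (ThetaData N k) := by
  have hB : (extB N k).transpose = - extB N k := Dil.extB_skew N k
  exact ⟨{
    th := th g
    al := al g 0
    th_self := th_self h0
    th_supp := fun γ η h => th_supp h
    th_pos := pos_th fun s γ => hcp s _ (thF_spec h0 s) γ
    expand := expand hB h0
    al_th := al_th hB h0
    mul_pos := pos_al_th_mul_th hB h0 hsp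
    mul_lead := mul_lead hB h0
    string := fun γ η j hj h hb c hc hcc => string_th h0 (hstr j hj) γ η h hb c hc hcc
    trace := trace hB g
    H_pos := fun γ => pos_al_of h0 (hH γ) }⟩

/-- S3a: a good element gives `ThetaData`, once its theta functions have positive coefficients and
the string property (block S3b). -/
theorem thetaData_of_good {N k : ℕ} (hg : GoodElement N k)
    (hcp : ∀ g : QSeries (extB N k), g 0 = 1 → StrongPositivity g →
      ∀ (s : Fin N → ℤ) (F : QSeries (extB N k)), IsTheta g s F → ∀ γ, Pos (F γ))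
    (hstr : ∀ g : QSeries (extB N k), g 0 = 1 → StrongPositivity g →
      ∀ j : Fin N, (∀ m : ℕ, g (Finsupp.single j m) = psi m) → StringProp g j) :
    Nonempty (ThetaData N k) := by
  obtain ⟨g, h0, hsp, hA, hf⟩ := hg
  exact thetaData_of h0 hsp (hcp g h0 hsp) (fun j hj => hstr g h0 hsp j fun m => hf j m hj)
    (H_pos h0 hsp hA)

end

end Vale.Agent.P066.Theta
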